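import Vale.Agent.Lib.P052.FewPoints

/-!
# P052 (Borsuk's partition problem): sets with at most `d + 4` points

For every `d`, every finite set `X` of at most `d + 4` points of `ℝ^d` with positive diameter can
be partitioned into `d + 1` subsets (the classes `{x ∈ X | f x = i}`, `i : Fin (d + 1)`, of a
colouring `f`), each of diameter strictly smaller than the diameter of `X`.
Consequently any counterexample to Borsuk's conjecture in dimension `d` has at least `d + 5`
points.
-/

namespace Vale.Agent.Results.P052.FewPoints

theorem result (d : ℕ) (X : Finset (EuclideanSpace ℝ (Fin d))) (hcard : X.card ≤ d + 4)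
    (hdiam : 0 < Metric.diam (X : Set (EuclideanSpace ℝ (Fin d)))) :
    ∃ f : EuclideanSpace ℝ (Fin d) → Fin (d + 1),
      ∀ i : Fin (d + 1), Metric.diam {x : EuclideanSpace ℝ (Fin d) | x ∈ X ∧ f x = i}
        < Metric.diam (X : Set (EuclideanSpace ℝ (Fin d))) := by
  classical
  have hbdd : Bornology.IsBounded (X : Set (EuclideanSpace ℝ (Fin d))) :=
    X.finite_toSet.isBounded
  obtain ⟨f, hf⟩ := Vale.Agent.Lib.P052.exists_coloring d X _ hdiam hcard
    (fun p hp q hq => Metric.dist_le_diam_of_mem hbdd hp hq)
  refine ⟨f, fun i => ?_⟩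
  have hset : {x : EuclideanSpace ℝ (Fin d) | x ∈ X ∧ f x = i}
      = ↑(X.filter (fun x => f x = i)) := by
    ext x
    simp
  rw [hset]
  by_cases hne : (X.filter (fun x => f x = i)).Nonempty
  · obtain ⟨pq, hpq, hmax⟩ := Finset.exists_max_image
      ((X.filter (fun x => f x = i)) ×ˢ (X.filter (fun x => f x = i)))
      (fun pq => dist pq.1 pq.2) (hne.product hne)
    have hp := (Finset.mem_product.mp hpq).1
    have hq := (Finset.mem_product.mp hpq).2
    have hlt : dist pq.1 pq.2 < Metric.diam (X : Set (EuclideanSpace ℝ (Fin d))) := by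
      by_cases h : pq.1 = pq.2
      · rw [h, dist_self]
        exact hdiam
      · exact hf pq.1 (Finset.mem_filter.mp hp).1 pq.2 (Finset.mem_filter.mp hq).1 h
          ((Finset.mem_filter.mp hp).2.trans (Finset.mem_filter.mp hq).2.symm)
    refine lt_of_le_of_lt (Metric.diam_le_of_forall_dist_le dist_nonneg ?_) hlt
    intro x hx y hy
    exact hmax (x, y) (Finset.mem_product.mpr ⟨hx, hy⟩)
  · rw [Finset.not_nonempty_iff_eq_empty.mp hne]
    simpa using hdiam

end Vale.Agent.Results.P052.FewPoints
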